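import Mathlib

/-!
P050: Sidorenko's inequality for all graphs in monotone step kernels.
-/

namespace Vale.Agent.Results.P050.MonotoneKernels

open Finset

variable {V X : Type} [Fintype V] [DecidableEq V] [Fintype X] [LinearOrder X]

/-- `t(H, W)` for the step kernel with steps of widths `α x` and values `W s(x, y)` -/
noncomputable def t (H : SimpleGraph V) [DecidableRel H.Adj] (α : X → ℝ) (W : Sym2 X → ℝ) : ℝ :=
  ∑ φ : V → X, (∏ v, α (φ v)) * ∏ e ∈ H.edgeFinset, W (e.map φ)

/-- the edge density `t(K_2, W)` -/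
noncomputable def density (α : X → ℝ) (W : Sym2 X → ℝ) : ℝ :=
  ∑ x, ∑ y, α x * α y * W s(x, y)

theorem marg (α : X → ℝ) (h1 : ∑ x, α x = 1) (u v : V) (huv : u ≠ v) (x y : X) :
    ∑ φ : V → X, (∏ w, α (φ w)) * ((if φ u = x then 1 else 0) * (if φ v = y then 1 else 0)) =
      α x * α y := by
  obtain ⟨g, hg⟩ : ∃ g : V → X → ℝ, g = fun w z => α z *
      ((if w = u then (if z = x then 1 else 0) else 1) *
        (if w = v then (if z = y then 1 else 0) else 1)) := ⟨_, rfl⟩
  have e1 : ∀ φ : V → X, (∏ w, α (φ w)) * ((if φ u = x then 1 else 0) *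
      (if φ v = y then 1 else 0)) = ∏ w, g w (φ w) := by
    intro φ
    rw [hg]
    simp only
    rw [Finset.prod_mul_distrib, Finset.prod_mul_distrib, Finset.prod_ite_eq' univ u,
      Finset.prod_ite_eq' univ v]
    simp
  have e2 : ∑ φ : V → X, ∏ w, g w (φ w) = ∏ w, ∑ z, g w z := by
    rw [Finset.prod_univ_sum, Fintype.piFinset_univ]
  rw [Finset.sum_congr rfl fun φ _ => e1 φ, e2, Fintype.prod_eq_mul u v huv]
  · rw [hg]
    simp [huv, huv.symm]
  · rintro w ⟨hw1, hw2⟩
    rw [hg]
    simp [hw1, hw2, h1]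

theorem single (α : X → ℝ) (h1 : ∑ x, α x = 1) (W : Sym2 X → ℝ) (u v : V) (huv : u ≠ v) :
    ∑ φ : V → X, (∏ w, α (φ w)) * W s(φ u, φ v) = density α W := by
  unfold density
  have e : ∀ φ : V → X, (∏ w, α (φ w)) * W s(φ u, φ v) = ∑ x, ∑ y,
      ((∏ w, α (φ w)) * ((if φ u = x then 1 else 0) * (if φ v = y then 1 else 0))) * W s(x, y) := by
    intro φ
    simp
  rw [Finset.sum_congr rfl fun φ _ => e φ, Finset.sum_comm]
  refine Finset.sum_congr rfl fun x _ => ?_
  rw [Finset.sum_comm]
  refine Finset.sum_congr rfl fun y _ => ?_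
  rw [← Finset.sum_mul, marg α h1 u v huv]

theorem main (α : X → ℝ) (h0 : ∀ x, 0 ≤ α x) (h1 : ∑ x, α x = 1) (W : Sym2 X → ℝ)
    (hW : ∀ e, 0 ≤ W e) (hm : ∀ x y x' y', x ≤ x' → y ≤ y' → W s(x, y) ≤ W s(x', y'))
    (S : Finset (Sym2 V)) : (∀ e ∈ S, ¬ e.IsDiag) →
    density α W ^ S.card ≤ ∑ φ : V → X, (∏ v, α (φ v)) * ∏ e ∈ S, W (e.map φ) := by
  classical
  have hmap : ∀ e : Sym2 V, Monotone fun φ : V → X => W (e.map φ) := by
    intro e
    induction e using Sym2.ind with
    | _ u v =>
      intro φ ψ h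
      exact hm _ _ _ _ (h u) (h v)
  have hone : ∑ φ : V → X, ∏ v, α (φ v) = 1 := by
    have : ∑ φ : V → X, ∏ w, α (φ w) = ∏ _w : V, ∑ z, α z := by
      rw [Finset.prod_univ_sum, Fintype.piFinset_univ]
    rw [this, h1]
    simp
  have hd0 : 0 ≤ density α W := by
    unfold density
    exact Finset.sum_nonneg fun x _ => Finset.sum_nonneg fun y _ =>
      mul_nonneg (mul_nonneg (h0 x) (h0 y)) (hW _)
  induction S using Finset.induction_on with
  | empty => intro _; simp [hone]
  | insert e S he ih =>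
    intro hS
    have ih' := ih fun f hf => hS f (Finset.mem_insert_of_mem hf)
    have hde := hS e (Finset.mem_insert_self _ _)
    rw [Finset.card_insert_of_notMem he, pow_succ']
    have hs : ∑ φ : V → X, (∏ w, α (φ w)) * W (e.map φ) = density α W := by
      induction e using Sym2.ind with
      | _ u v => exact single α h1 W u v hde
    have hf := fkg (μ := fun φ : V → X => ∏ v, α (φ v)) (f := fun φ => W (e.map φ))
      (g := fun φ => ∏ e ∈ S, W (e.map φ)) (fun φ => Finset.prod_nonneg fun v _ => h0 _)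
      (fun φ => hW _) (fun φ => Finset.prod_nonneg fun e _ => hW _) (hmap e)
      (fun φ ψ h => Finset.prod_le_prod (fun e _ => hW _) fun e _ => hmap e h) (by
        intro a b
        rw [← Finset.prod_mul_distrib, ← Finset.prod_mul_distrib]
        apply le_of_eq
        refine Finset.prod_congr rfl fun w _ => ?_
        rw [Pi.inf_apply, Pi.sup_apply]
        rcases le_total (a w) (b w) with h | h
        · rw [inf_eq_left.2 h, sup_eq_right.2 h]
        · rw [inf_eq_right.2 h, sup_eq_left.2 h, mul_comm])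
    rw [hs, hone, one_mul] at hf
    calc density α W * density α W ^ S.card
        ≤ density α W * ∑ φ : V → X, (∏ v, α (φ v)) * ∏ e ∈ S, W (e.map φ) :=
          mul_le_mul_of_nonneg_left ih' hd0
      _ ≤ _ := hf
      _ = _ := by
        refine Finset.sum_congr rfl fun φ _ => ?_
        rw [Finset.prod_insert he]

/-- Sidorenko's inequality `t(K_2, W) ^ |E(H)| ≤ t(H, W)` for every graph `H`, bipartite or not,
and every step kernel `W` which is nondecreasing in both variables. -/
theorem result (V X : Type) [Fintype V] [DecidableEq V] [Fintype X] [LinearOrder X]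
    (H : SimpleGraph V) [DecidableRel H.Adj] (α : X → ℝ) (h0 : ∀ x, 0 ≤ α x)
    (h1 : ∑ x, α x = 1) (W : Sym2 X → ℝ) (hW : ∀ e, 0 ≤ W e)
    (hm : ∀ x y x' y', x ≤ x' → y ≤ y' → W s(x, y) ≤ W s(x', y')) :
    density α W ^ H.edgeFinset.card ≤ t H α W :=
  main α h0 h1 W hW hm H.edgeFinset fun e he =>
    H.not_isDiag_of_mem_edgeSet (SimpleGraph.mem_edgeFinset.1 he)

end Vale.Agent.Results.P050.MonotoneKernels
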